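import Vale.Agent.P297.H212.Four.Final
import Vale.Agent.P297.H424.Z3.Main

/-!
Bloch's conjecture, integrally, for the general numerical Godeaux surface with torsion `ℤ/4`.
-/

set_option linter.unusedSectionVars false

open MvPolynomial

namespace Vale.Agent.P297.H600.AllG

open Vale.Agent.P297 Vale.Agent.P297.H839 Vale.Agent.P297.G4 Vale.Agent.P297.H160
open Vale.Agent.P297.H600 Vale.Agent.P297.H729

/-- A square of a polynomial of degree two: a relation between the coefficients. -/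
theorem rel_of_sq {c : Fin 5 → ℂ} {r₀ r₁ r₂ : ℂ}
    (h : ∀ x, qv c x = (r₀ + r₁ * x + r₂ * x ^ 2) ^ 2) : c 1 ^ 2 * c 4 = c 3 ^ 2 * c 0 := by
  have e0 := h 0
  have e1 := h 1
  have e2 := h (-1)
  have e3 := h 2
  have e4 := h (-2)
  simp only [qv] at e0 e1 e2 e3 e4
  have h0 : c 0 = r₀ ^ 2 := by linear_combination e0
  have h4 : c 4 = r₂ ^ 2 := by
    linear_combination (e3 + e4 - 4 * e1 - 4 * e2 + 6 * e0) / 24
  have h1 : c 1 = 2 * r₀ * r₁ := by
    linear_combination (8 * e1 - 8 * e2 - e3 + e4) / 12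
  have h3 : c 3 = 2 * r₁ * r₂ := by
    linear_combination (e3 - e4 - 2 * e1 + 2 * e2) / 12
  rw [h0, h1, h3, h4]
  ring

/-- the polynomial in the parameters -/
noncomputable def R4 : MvPolynomial (Fin 11) ℂ :=
  X 0 * X 1 * X 2 * X 7 * X 9 *
    (fc (fun i => (X i : MvPolynomial (Fin 11) ℂ)) 1 1 ^ 2 *
        fc (fun i => (X i : MvPolynomial (Fin 11) ℂ)) 1 4 -
      fc (fun i => (X i : MvPolynomial (Fin 11) ℂ)) 1 3 ^ 2 *
        fc (fun i => (X i : MvPolynomial (Fin 11) ℂ)) 1 0)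

theorem eval_R4 (z : Fin 11 → ℂ) : eval z R4 = z 0 * z 1 * z 2 * z 7 * z 9 *
    (fc z 1 1 ^ 2 * fc z 1 4 - fc z 1 3 ^ 2 * fc z 1 0) := by
  have h0 : eval z (fc (fun i => (X i : MvPolynomial (Fin 11) ℂ)) 1 0) = fc z 1 0 := by
    simp [fc, fB0, fB1, fB2, fE]
  have h1 : eval z (fc (fun i => (X i : MvPolynomial (Fin 11) ℂ)) 1 1) = fc z 1 1 := by
    simp [fc, fB0, fB1, fB2, fE]
  have h3 : eval z (fc (fun i => (X i : MvPolynomial (Fin 11) ℂ)) 1 3) = fc z 1 3 := by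
    simp [fc, fB0, fB1, fB2, fE]
  have h4 : eval z (fc (fun i => (X i : MvPolynomial (Fin 11) ℂ)) 1 4) = fc z 1 4 := by
    simp [fc, fB0, fB1, fB2, fE]
  unfold R4
  rw [eval_mul, eval_mul, eval_mul, eval_mul, eval_mul, eval_sub, eval_mul, eval_mul, eval_pow,
    eval_pow, h0, h1, h3, h4]
  simp only [eval_X]

theorem R4_ne : R4 ≠ 0 := by
  intro h
  have h1 := congrArg (eval (![1, 1, 1, 0, 0, 0, 0, 1, 0, 1, 0] : Fin 11 → ℂ)) h
  rw [eval_R4, map_zero] at h1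
  simp [fc, fB0, fB1, fB2, fE] at h1
  norm_num at h1

/-- **Every field dominated by the surface**, for all parameters outside the excluded set. -/
theorem four_sub {K : Type} [Field K] [Algebra ℂ K] {m : Fin 11 → ℂ} (m0 : m 0 ≠ 0) (m1 : m 1 ≠ 0)
    (m2 : m 2 ≠ 0) (h78 : m 7 ≠ 0 ∨ m 8 ≠ 0) (hsp : m 9 ≠ 0 ∨ m 10 ≠ 0 ∨ ¬ Special m)
    (hsq : ∃ l : ℂ, ∀ r₀ r₁ r₂ : ℂ, ∃ x : ℂ, qv (fc m l) x ≠ (r₀ + r₁ * x + r₂ * x ^ 2) ^ 2)
    {u w p q : K} (hs : OnSurf (fun i => algebraMap ℂ K (m i)) u w p q)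
    (hind : AlgebraicIndependent ℂ ![u, w])
    (htop : IntermediateField.adjoin ℂ {u, w, p, q} = ⊤) {L : Type} [Field L] [Algebra ℂ L]
    (ι : L →ₐ[ℂ] K) : PointsEquivalent L := by
  obtain ⟨h1, h2, h3⟩ := exists_field (Ω := BigField K 2) u w hind
    (alg_top hs hind htop m0) (bigVar K 2) (bigVar_basis K 2)
  have hT : ∀ s X Y : BigField K 2, Gen m s X Y →
      (8 : ℤ) • (G4.Bs u w p q m s X Y - G4.Bs u w p q m s⁻¹ X Y) ∈
        stableRelations K (BigField K 2) := fun _ _ _ hg =>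
    H212.Four.tside_all m0 m1 m2 h78 hsq h3 (G4.Bs u w p q m)
      (fun g e X Y => act_Bs g u w p q m e X Y) hg
  have h32 : Finsupp.single (IsScalarTower.toAlgHom ℂ K (BigField K 2)) (32 : ℤ) ∈
      stableRelations K (BigField K 2) := by
    by_cases hz : m 9 = 0 ∧ m 10 = 0
    · obtain ⟨m9, m10⟩ := hz
      have hsp' : ¬ Special m := by
        rcases hsp with h | h | h
        · exact absurd m9 h
        · exact absurd m10 h
        · exact h
      obtain ⟨c, d, hcd, hgD⟩ := exists_split m0 m1 hsp'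
      exact kside_zero m m0 m1 m9 m10 (by tauto) hcd hgD hs hind htop _ (bigVar K 2 0)
        (bigVar K 2 1) h1 h2 hT
    · have hm' : NonDeg m := by
        refine ⟨?_, by tauto⟩
        by_contra hcon
        push Not at hcon
        exact hz hcon
      exact kside' m m0 m1 hm' hs hind htop _ (bigVar K 2 0) (bigVar K 2 1) h1 h2 hT
  have h5 := H72.Rel.precomp ι (H72.Rel.of_stable (m := 0) h32)
  rw [Finsupp.mapDomain_single] at h5
  exact C8.pointsEquivalent_of_rel _ (by norm_num) h5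

/-- **The general numerical Godeaux surface with torsion `ℤ/4`**, and every surface dominated by
it. -/
theorem four : ∃ R : MvPolynomial (Fin 11) ℂ, R ≠ 0 ∧ ∀ z : Fin 11 → ℂ, eval z R ≠ 0 →
    ∀ (K : Type) [Field K] [Algebra ℂ K] (u w p q : K),
      AlgebraicIndependent ℂ ![u, w] →
      IntermediateField.adjoin ℂ {u, w, p, q} = ⊤ →
      OnSurf (fun i => algebraMap ℂ K (z i)) u w p q →
      ∀ (L : Type) [Field L] [Algebra ℂ L], (L →ₐ[ℂ] K) → PointsEquivalent L := by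
  refine ⟨R4, R4_ne, fun z hz K _ _ u w p q hind htop hs L _ _ ι => ?_⟩
  rw [eval_R4] at hz
  have h0 : z 0 ≠ 0 := fun h => hz (by rw [h]; ring)
  have h1 : z 1 ≠ 0 := fun h => hz (by rw [h]; ring)
  have h2 : z 2 ≠ 0 := fun h => hz (by rw [h]; ring)
  have h7 : z 7 ≠ 0 := fun h => hz (by rw [h]; ring)
  have h9 : z 9 ≠ 0 := fun h => hz (by rw [h]; ring)
  have hq : fc z 1 1 ^ 2 * fc z 1 4 - fc z 1 3 ^ 2 * fc z 1 0 ≠ 0 :=
    fun h => hz (by rw [h]; ring)
  refine four_sub h0 h1 h2 (Or.inl h7) (Or.inl h9) ⟨1, fun r₀ r₁ r₂ => ?_⟩ hs hind htop ι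
  by_contra hcon
  push Not at hcon
  exact hq (by rw [rel_of_sq hcon]; ring)

end Vale.Agent.P297.H600.AllG
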